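import Vale.Agent.P181.FL.Defs
import Vale.Agent.P181.H280.Final
import Vale.Agent.P181.H530.Zero
import Vale.Agent.P181.H530.Pad

set_option autoImplicit false

open scoped TensorProduct BigOperators

/-!
# P181, FL [WRD]: from words to plethysms
-/

namespace Vale.Agent.P181.FL.H605

open Finset MvPolynomial
open Vale.Agent.P181 Vale.Agent.P181.H280

section

variable {a b : ℕ}

/-- The values of the form at the monomials. -/
noncomputable def val (l : (Fin a → Fin b → (Fin a → ℂ)) →₀ ℂ) (c : Fin a × Fin b → Fin a) : ℂ :=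
  rowProd b (formOf l) (fun p => X (c p))

lemma val_step (lam : Fin a → ℕ) (l : (Fin a → Fin b → (Fin a → ℂ)) →₀ ℂ)
    (hx : elOf l ∈ hwSpace lam (plethAct a b a)) (i k : Fin a) (hik : i ≤ k)
    (c : Fin a × Fin b → Fin a) :
    ∑ p, (if c p = i then val l (Function.update c p k) else 0) =
      (if k = i then (lam i : ℂ) else 0) * val l c := by
  classical
  have h1 := hwForm_formOf (le_refl a) lam l hx i k hik
    (fun i' => ∏ j, (X (c (i', j)) : MvPolynomial (Fin a) ℂ))
    (fun i' => prod_mem_pow _ _ (fun j => X_mem_linS _))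
  have e : ∀ j : Fin a, Fin.castLE (le_refl a) j = j := fun j => rfl
  simp only [e] at h1
  let D : Derivation ℂ (MvPolynomial (Fin a) ℂ) (MvPolynomial (Fin a) ℂ) :=
    (X k : MvPolynomial (Fin a) ℂ) • pderiv i
  have hD : ∀ Q, D Q = X k * pderiv i Q := fun Q => rfl
  have hDX : ∀ j, D (X j) = if j = i then X k else 0 := by
    intro j
    rw [hD]
    by_cases hj : j = i
    · rw [hj, pderiv_X_self, if_pos rfl, mul_one]
    · rw [pderiv_X_of_ne hj, if_neg hj, mul_zero]
  have h2 := opForm_prod D (formOf l) (fun p : Fin a × Fin b =>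
    (X (c p) : MvPolynomial (Fin a) ℂ))
  rw [opForm_apply] at h2
  have h3 : ∑ i', formOf l (Function.update (fun i' => ∏ j,
      (X (c (i', j)) : MvPolynomial (Fin a) ℂ)) i' (D.toLinearMap (∏ j, X (c (i', j))))) =
      (if k = i then (lam i : ℂ) else 0) *
        formOf l (fun i' => ∏ j, (X (c (i', j)) : MvPolynomial (Fin a) ℂ)) := h1
  rw [h3] at h2
  have h4 : val l c = formOf l (fun i' => ∏ j, (X (c (i', j)) : MvPolynomial (Fin a) ℂ)) := by
    rw [val, rowProd_apply]
  rw [h4, h2]
  apply Finset.sum_congr rfl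
  intro p _
  rw [hDX]
  split_ifs with h
  · rw [val]
    congr 1
    funext p'
    by_cases hp : p' = p
    · subst hp
      rw [Function.update_self, Function.update_self]
    · rw [Function.update_of_ne hp, Function.update_of_ne hp]
  · exact (MultilinearMap.map_update_zero _ _ _).symm

end

section

variable {a q : ℕ}

/-- Positions. -/
def pe (a q : ℕ) : Pos a q a ≃ Fin a × Fin (q * a) :=
  (Equiv.prodAssoc (Fin a) (Fin q) (Fin a)).trans
    ((Equiv.refl (Fin a)).prodCongr finProdFinEquiv)

lemma pe_apply (i : Fin a) (k : Fin q) (s : Fin a) :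
    pe a q ((i, k), s) = (i, finProdFinEquiv (k, s)) := rfl

/-- The function on words. -/
noncomputable def fw (l : (Fin a → Fin (q * a) → (Fin a → ℂ)) →₀ ℂ) (w : Pos a q a → Fin a) : ℂ :=
  val l (w ∘ (pe a q).symm)

lemma fw_eq (l : (Fin a → Fin (q * a) → (Fin a → ℂ)) →₀ ℂ) (w : Pos a q a → Fin a) :
    fw l w = formOf l (fun i => ∏ k : Fin q, ∏ s : Fin a,
      (X (w ((i, k), s)) : MvPolynomial (Fin a) ℂ)) := by
  rw [fw, val, rowProd_apply]
  congr 1
  funext i
  rw [← Equiv.prod_comp finProdFinEquiv, Fintype.prod_prod_type]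
  apply Finset.prod_congr rfl
  intro k _
  apply Finset.prod_congr rfl
  intro s _
  rw [Function.comp_apply, ← pe_apply, Equiv.symm_apply_apply]

lemma row_eq (w : Pos a q a → Fin a) (i : Fin a) :
    ∏ k : Fin q, ∏ s : Fin a, (X (w ((i, k), s)) : MvPolynomial (Fin a) ℂ) =
      ∏ p : Pos a q a, (if p.1.1 = i then (X (w p) : MvPolynomial (Fin a) ℂ) else 1) := by
  rw [Fintype.prod_prod_type, Fintype.prod_prod_type]
  rw [Finset.prod_eq_single i]
  · apply Finset.prod_congr rfl
    intro k _
    apply Finset.prod_congr rfl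
    intro s _
    rw [if_pos rfl]
  · intro i' _ hi'
    apply Finset.prod_eq_one
    intro k _
    apply Finset.prod_eq_one
    intro s _
    rw [if_neg hi']
  · intro h
    exact absurd (Finset.mem_univ _) h

lemma fw_step (lam : Fin a → ℕ) (l : (Fin a → Fin (q * a) → (Fin a → ℂ)) →₀ ℂ)
    (hx : elOf l ∈ hwSpace lam (plethAct a (q * a) a)) (i k : Fin a) (hik : i ≤ k)
    (w : Pos a q a → Fin a) :
    ∑ p, (if w p = i then fw l (Function.update w p k) else 0) =
      (if k = i then (lam i : ℂ) else 0) * fw l w := by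
  classical
  rw [fw, ← val_step lam l hx i k hik, ← Equiv.sum_comp (pe a q)]
  apply Finset.sum_congr rfl
  intro p _
  have h1 : (w ∘ (pe a q).symm) (pe a q p) = w p := by
    rw [Function.comp_apply, Equiv.symm_apply_apply]
  rw [h1, fw]
  have h2 : Function.update w p k ∘ (pe a q).symm =
      Function.update (w ∘ (pe a q).symm) (pe a q p) k := by
    rw [Function.update_comp_equiv]
    rfl
  rw [h2]

lemma hww (lam : Fin a → ℕ) (l : (Fin a → Fin (q * a) → (Fin a → ℂ)) →₀ ℂ)
    (hx : elOf l ∈ hwSpace lam (plethAct a (q * a) a)) : HWW lam (fw l) where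
  wt := by
    intro w hw i
    have h1 := fw_step lam l hx i i le_rfl w
    rw [if_pos rfl] at h1
    have h2 : ∀ p, (if w p = i then fw l (Function.update w p i) else 0) =
        (if w p = i then (1 : ℂ) else 0) * fw l w := by
      intro p
      split_ifs with h
      · rw [one_mul, ← h, Function.update_eq_self]
      · rw [zero_mul]
    rw [Finset.sum_congr rfl (fun p _ => h2 p), ← Finset.sum_mul, Finset.sum_boole] at h1
    have h3 := mul_right_cancel₀ hw h1
    exact_mod_cast h3
  hw := by
    intro i k hik w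
    have h1 := fw_step lam l hx i k hik.le w
    rw [if_neg hik.ne', zero_mul] at h1
    exact h1

/-- The case of `a` rows. -/
theorem inj_sq (h : WordStmt) (he : Even a) (hq : 1 ≤ q) (lam : Fin a → ℕ) (hanti : Antitone lam)
    (hlam : ∀ i, lam i ≤ (q + 1) * a)
    (x : Sym[ℂ]^a (Sym[ℂ]^(q * a) (Fin a → ℂ))) (hx : x ∈ hwSpace lam (plethAct a (q * a) a))
    (h0 : powMap a q (Fin a → ℂ) x = 0) : x = 0 := by
  classical
  obtain ⟨l, rfl⟩ := exists_elOf x
  have hf : ∀ w, fw l w = 0 := by
    refine h a q a a lam (fw l) he hq hanti hlam (hww lam l hx) ?_ ?_ ?_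
    · intro g hg w
      rw [fw_eq, fw_eq]
      congr 1
      funext i
      rw [row_eq w i, ← Equiv.prod_comp g, row_eq (fun p => w (g p)) i]
      apply Finset.prod_congr rfl
      intro p _
      rw [hg]
    · intro e w
      rw [fw_eq, fw_eq]
      exact formOf_symm l e (fun i => ∏ k : Fin q, ∏ s : Fin a,
        (X (w ((i, k), s)) : MvPolynomial (Fin a) ℂ))
    · intro w
      have h1 := polar (rowProd q (formOf l)) (linS a ^ a) (by
        intro G hG
        rw [rowProd_apply, ← formOf_pow l h0 G hG]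
        congr 1
        funext i
        rw [Finset.prod_const, Finset.card_univ, Fintype.card_fin])
        (fun ik : Fin a × Fin q => ∏ s : Fin a, (X (w (ik, s)) : MvPolynomial (Fin a) ℂ))
        (fun ik => prod_mem_pow _ _ (fun s => X_mem_linS _))
      rw [← h1]
      apply Finset.sum_congr rfl
      intro g _
      rw [fw_eq, rowProd_apply]
  apply elOf_eq_zero
  intro P hP
  apply multilinear_zero_of_span (formOf l)
    (Set.range (fun c : Fin (q * a) → Fin a => ∏ j, (X (c j) : MvPolynomial (Fin a) ℂ)))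
  · intro w hw
    choose c hc using hw
    rw [← hf (fun p => c p.1.1 (finProdFinEquiv (p.1.2, p.2))), fw_eq]
    congr 1
    funext i
    rw [← hc i]
    show ∏ j, (X (c i j) : MvPolynomial (Fin a) ℂ) = _
    rw [← Equiv.prod_comp finProdFinEquiv, Fintype.prod_prod_type]
  · intro i
    exact span_pow_eq _ _ (hP i)

theorem flat_sq (h : WordStmt) (he : Even a) (hq : 1 ≤ q) (lam : Fin a → ℕ)
    (hanti : Antitone lam) (hlam : ∀ i, lam i ≤ (q + 1) * a) :
    plethMult a (q * a) a lam ≤ plethMult (q * a) a a lam :=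
  finrank_le_of_inj (powMap a q (Fin a → ℂ)) _ _ (fun x hx => powMap_hwSpace lam x hx)
    (fun x hx h0 => inj_sq h he hq lam hanti hlam x hx h0)

end

/-- **[WRD]** -/
theorem flat (h : WordStmt) : FlatStmt := by
  intro a q n lam he hq hlam
  by_cases hz : plethMult a (q * a) n lam = 0
  · rw [hz]
    exact Nat.zero_le _
  obtain ⟨hanti, hsum, h0⟩ := H530.zero_stmt a (q * a) n lam hz
  clear hz hsum
  rcases Nat.le_total n a with hna | hna
  · obtain ⟨k, rfl⟩ := Nat.exists_eq_add_of_le hna
    rw [← H530.pad_stmt (n + k) (q * (n + k)) n k lam,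
      ← H530.pad_stmt (q * (n + k)) (n + k) n k lam]
    apply flat_sq h he hq
    · intro i j hij
      have hij' : (i : ℕ) ≤ j := hij
      dsimp only
      split_ifs with h1 h2 h2
      · exact hanti (show (⟨i, h2⟩ : Fin n) ≤ ⟨j, h1⟩ from hij')
      · omega
      · exact Nat.zero_le _
      · exact le_rfl
    · intro i
      split_ifs with h1
      · exact hlam _
      · exact Nat.zero_le _
  · obtain ⟨k, rfl⟩ := Nat.exists_eq_add_of_le hna
    obtain ⟨mu, hmu⟩ : ∃ mu : Fin a → ℕ, mu = fun i => lam (Fin.castAdd k i) := ⟨_, rfl⟩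
    have hl : lam = fun i : Fin (a + k) => if h : (i : ℕ) < a then mu ⟨i, h⟩ else 0 := by
      funext i
      by_cases hi : (i : ℕ) < a
      · rw [dif_pos hi, hmu]
        congr 1
      · rw [dif_neg hi]
        exact h0 i (by omega)
    rw [hl, H530.pad_stmt a (q * a) a k mu, H530.pad_stmt (q * a) a a k mu]
    apply flat_sq h he hq
    · rw [hmu]
      intro i j hij
      have hij' : (i : ℕ) ≤ j := hij
      exact hanti (show Fin.castAdd k i ≤ Fin.castAdd k j from hij')
    · intro i
      rw [hmu]
      exact hlam _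

end Vale.Agent.P181.FL.H605
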